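import Vale.Agent.P366.H474.G.Compl

/-! P366, Gauss-Codazzi: the contractions of the curvature tensor at a point. -/

namespace Vale.Agent.P366.GC

variable {n m : ℕ}

/-- The value of a `(0,2)` tensor. -/
def b2 (S : Fin m → Fin m → ℝ) (X Y : Fin m → ℝ) : ℝ := ∑ a, ∑ b, S a b * X a * Y b

/-- The value `⟨R(X, Y) Z, W⟩` for the lowered curvature tensor `L`. -/
def q4 (L : Fin m → Fin m → Fin m → Fin m → ℝ) (W Z X Y : Fin m → ℝ) : ℝ :=
  ∑ a, ∑ c, (∑ b, ∑ d, L a b c d * Z b * Y d) * W a * X c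

/-- Contraction with the inverse metric. -/
theorem contr {Gi : Fin (n + 1) → Fin (n + 1) → ℝ} {T : Fin n → Fin (n + 1) → ℝ}
    {N : Fin (n + 1) → ℝ} {gi : Fin n → Fin n → ℝ}
    (hGi : ∀ a b, Gi a b = (∑ i, ∑ j, gi i j * T i a * T j b) - N a * N b)
    (S : Fin (n + 1) → Fin (n + 1) → ℝ) :
    ∑ a, ∑ b, Gi a b * S a b = (∑ i, ∑ j, gi i j * b2 S (T i) (T j)) - b2 S N N := by
  have h1 : ∀ i j, gi i j * b2 S (T i) (T j) =
      ∑ a, ∑ b, gi i j * T i a * T j b * S a b := by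
    intro i j
    rw [b2, Finset.mul_sum]
    refine Finset.sum_congr rfl fun a _ => ?_
    rw [Finset.mul_sum]
    exact Finset.sum_congr rfl fun b _ => by ring
  have h2 : (∑ i, ∑ j, gi i j * b2 S (T i) (T j)) =
      ∑ a, ∑ b, (∑ i, ∑ j, gi i j * T i a * T j b) * S a b := by
    simp only [h1]
    calc ∑ i, ∑ j, ∑ a, ∑ b, gi i j * T i a * T j b * S a b
        = ∑ i, ∑ a, ∑ j, ∑ b, gi i j * T i a * T j b * S a b :=
          Finset.sum_congr rfl fun i _ => Finset.sum_comm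
      _ = ∑ a, ∑ i, ∑ j, ∑ b, gi i j * T i a * T j b * S a b := Finset.sum_comm
      _ = ∑ a, ∑ i, ∑ b, ∑ j, gi i j * T i a * T j b * S a b :=
          Finset.sum_congr rfl fun a _ => Finset.sum_congr rfl fun i _ => Finset.sum_comm
      _ = ∑ a, ∑ b, ∑ i, ∑ j, gi i j * T i a * T j b * S a b :=
          Finset.sum_congr rfl fun a _ => Finset.sum_comm
      _ = _ := by
          refine Finset.sum_congr rfl fun a _ => Finset.sum_congr rfl fun b _ => ?_
          simp only [Finset.sum_mul]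
  rw [h2, b2, ← Finset.sum_sub_distrib]
  refine Finset.sum_congr rfl fun a _ => ?_
  rw [← Finset.sum_sub_distrib]
  refine Finset.sum_congr rfl fun b _ => ?_
  rw [hGi]
  ring

lemma q4_swapXY {L : Fin m → Fin m → Fin m → Fin m → ℝ} (h : ∀ a b c d, L a b c d = -L a b d c)
    (W Z X Y : Fin m → ℝ) : q4 L W Z X Y = -q4 L W Z Y X := by
  rw [q4, q4, ← Finset.sum_neg_distrib]
  refine Finset.sum_congr rfl fun a _ => ?_
  have h1 : ∀ P Q : Fin m → ℝ, ∑ c, (∑ b, ∑ d, L a b c d * Z b * Q d) * W a * P c =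
      ∑ c, ∑ d, (∑ b, L a b c d * Z b) * W a * P c * Q d := by
    intro P Q
    refine Finset.sum_congr rfl fun c _ => ?_
    rw [Finset.sum_comm, Finset.sum_mul, Finset.sum_mul]
    refine Finset.sum_congr rfl fun d _ => ?_
    rw [← Finset.sum_mul]
    ring
  rw [h1, h1, Finset.sum_comm, ← Finset.sum_neg_distrib]
  refine Finset.sum_congr rfl fun c _ => ?_
  rw [← Finset.sum_neg_distrib]
  refine Finset.sum_congr rfl fun d _ => ?_
  have h2 : (∑ b, L a b d c * Z b) = -∑ b, L a b c d * Z b := by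
    rw [← Finset.sum_neg_distrib]
    exact Finset.sum_congr rfl fun b _ => by rw [h a b d c]; ring
  rw [h2]
  ring

lemma q4_swapWZ {L : Fin m → Fin m → Fin m → Fin m → ℝ} (h : ∀ a b c d, L a b c d = -L b a c d)
    (W Z X Y : Fin m → ℝ) : q4 L W Z X Y = -q4 L Z W X Y := by
  have h1 : ∀ P Q : Fin m → ℝ, q4 L P Q X Y =
      ∑ a, ∑ b, (∑ c, ∑ d, L a b c d * X c * Y d) * P a * Q b := by
    intro P Q
    rw [q4]
    refine Finset.sum_congr rfl fun a _ => ?_
    have h2 : ∀ c, (∑ b, ∑ d, L a b c d * Q b * Y d) * P a * X c =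
        ∑ b, (∑ d, L a b c d * X c * Y d) * P a * Q b := by
      intro c
      rw [Finset.sum_mul, Finset.sum_mul]
      refine Finset.sum_congr rfl fun b _ => ?_
      rw [Finset.sum_mul, Finset.sum_mul, Finset.sum_mul, Finset.sum_mul]
      exact Finset.sum_congr rfl fun d _ => by ring
    simp only [h2]
    rw [Finset.sum_comm]
    refine Finset.sum_congr rfl fun b _ => ?_
    rw [← Finset.sum_mul, ← Finset.sum_mul]
  rw [h1, h1, Finset.sum_comm, ← Finset.sum_neg_distrib]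
  refine Finset.sum_congr rfl fun a _ => ?_
  rw [← Finset.sum_neg_distrib]
  refine Finset.sum_congr rfl fun b _ => ?_
  have h2 : (∑ c, ∑ d, L b a c d * X c * Y d) = -∑ c, ∑ d, L a b c d * X c * Y d := by
    rw [← Finset.sum_neg_distrib]
    refine Finset.sum_congr rfl fun c _ => ?_
    rw [← Finset.sum_neg_distrib]
    exact Finset.sum_congr rfl fun d _ => by rw [h b a c d]; ring
  rw [h2]
  ring

lemma q4_diag {L : Fin m → Fin m → Fin m → Fin m → ℝ} (h : ∀ a b c d, L a b c d = -L b a c d)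
    (Z X Y : Fin m → ℝ) : q4 L Z Z X Y = 0 := by
  have := q4_swapWZ h Z Z X Y
  linarith

/-- The Ricci tensor in the adapted frame. -/
theorem ric_frame {Gi : Fin (n + 1) → Fin (n + 1) → ℝ} {T : Fin n → Fin (n + 1) → ℝ}
    {N : Fin (n + 1) → ℝ} {gi : Fin n → Fin n → ℝ}
    (hGi : ∀ a b, Gi a b = (∑ i, ∑ j, gi i j * T i a * T j b) - N a * N b)
    {L : Fin (n + 1) → Fin (n + 1) → Fin (n + 1) → Fin (n + 1) → ℝ}
    {Rc : Fin (n + 1) → Fin (n + 1) → ℝ} (hR : ∀ b d, Rc b d = ∑ a, ∑ k, Gi a k * L a b k d)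
    (Z Y : Fin (n + 1) → ℝ) :
    b2 Rc Z Y = (∑ i, ∑ j, gi i j * q4 L (T i) Z (T j) Y) - q4 L N Z N Y := by
  have h1 : b2 Rc Z Y = ∑ a, ∑ k, Gi a k * ∑ b, ∑ d, L a b k d * Z b * Y d := by
    calc b2 Rc Z Y = ∑ b, ∑ d, ∑ a, ∑ k, Gi a k * L a b k d * Z b * Y d := by
          rw [b2]
          refine Finset.sum_congr rfl fun b _ => Finset.sum_congr rfl fun d _ => ?_
          rw [hR]
          simp only [Finset.sum_mul]
      _ = ∑ b, ∑ a, ∑ d, ∑ k, Gi a k * L a b k d * Z b * Y d :=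
          Finset.sum_congr rfl fun b _ => Finset.sum_comm
      _ = ∑ a, ∑ b, ∑ d, ∑ k, Gi a k * L a b k d * Z b * Y d := Finset.sum_comm
      _ = ∑ a, ∑ b, ∑ k, ∑ d, Gi a k * L a b k d * Z b * Y d :=
          Finset.sum_congr rfl fun a _ => Finset.sum_congr rfl fun b _ => Finset.sum_comm
      _ = ∑ a, ∑ k, ∑ b, ∑ d, Gi a k * L a b k d * Z b * Y d :=
          Finset.sum_congr rfl fun a _ => Finset.sum_comm
      _ = _ := by
          refine Finset.sum_congr rfl fun a _ => Finset.sum_congr rfl fun k _ => ?_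
          rw [Finset.mul_sum]
          refine Finset.sum_congr rfl fun b _ => ?_
          rw [Finset.mul_sum]
          exact Finset.sum_congr rfl fun d _ => by ring
  rw [h1, contr hGi]
  rfl

/-- **Contracted Gauss equation, algebraic part.** -/
theorem ein_NN {G Gi : Fin (n + 1) → Fin (n + 1) → ℝ} {T : Fin n → Fin (n + 1) → ℝ}
    {N : Fin (n + 1) → ℝ} {gi : Fin n → Fin n → ℝ}
    (hGi : ∀ a b, Gi a b = (∑ i, ∑ j, gi i j * T i a * T j b) - N a * N b)
    {L : Fin (n + 1) → Fin (n + 1) → Fin (n + 1) → Fin (n + 1) → ℝ}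
    (h1 : ∀ a b c d, L a b c d = -L a b d c) (h2 : ∀ a b c d, L a b c d = -L b a c d)
    {Rc : Fin (n + 1) → Fin (n + 1) → ℝ} (hR : ∀ b d, Rc b d = ∑ a, ∑ k, Gi a k * L a b k d)
    (hN : ∑ a, ∑ b, G a b * N a * N b = -1) {s : ℝ} (hs : s = ∑ a, ∑ b, Gi a b * Rc a b) :
    2 * ∑ a, ∑ b, (Rc a b - s * G a b / 2) * N a * N b =
      ∑ k, ∑ l, gi k l * ∑ i, ∑ j, gi i j * q4 L (T i) (T k) (T j) (T l) := by
  have e1 : ∑ a, ∑ b, (Rc a b - s * G a b / 2) * N a * N b = b2 Rc N N + s / 2 := by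
    have e2 : ∑ a, ∑ b, (Rc a b - s * G a b / 2) * N a * N b =
        b2 Rc N N - s / 2 * ∑ a, ∑ b, G a b * N a * N b := by
      rw [b2, Finset.mul_sum, ← Finset.sum_sub_distrib]
      refine Finset.sum_congr rfl fun a _ => ?_
      rw [Finset.mul_sum, ← Finset.sum_sub_distrib]
      exact Finset.sum_congr rfl fun b _ => by ring
    rw [e2, hN]
    ring
  rw [e1]
  have e3 : s = (∑ k, ∑ l, gi k l * b2 Rc (T k) (T l)) - b2 Rc N N := by
    rw [hs, contr hGi]
  have e4 : b2 Rc N N = ∑ i, ∑ j, gi i j * q4 L (T i) N (T j) N := by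
    rw [ric_frame hGi hR, q4_diag h2, sub_zero]
  have e5 : ∀ k l, b2 Rc (T k) (T l) = (∑ i, ∑ j, gi i j * q4 L (T i) (T k) (T j) (T l)) -
      q4 L (T k) N (T l) N := by
    intro k l
    rw [ric_frame hGi hR, q4_swapWZ h2 N (T k), q4_swapXY h1 (T k) N N (T l), neg_neg]
  have e6 : ∑ k, ∑ l, gi k l * b2 Rc (T k) (T l) =
      (∑ k, ∑ l, gi k l * ∑ i, ∑ j, gi i j * q4 L (T i) (T k) (T j) (T l)) - b2 Rc N N := by
    rw [e4, ← Finset.sum_sub_distrib]
    refine Finset.sum_congr rfl fun k _ => ?_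
    rw [← Finset.sum_sub_distrib]
    refine Finset.sum_congr rfl fun l _ => ?_
    rw [e5]
    ring
  rw [e3, e6]
  ring

/-- **Contracted Codazzi equation, algebraic part.** -/
theorem ein_NT {G Gi : Fin (n + 1) → Fin (n + 1) → ℝ} {T : Fin n → Fin (n + 1) → ℝ}
    {N : Fin (n + 1) → ℝ} {gi : Fin n → Fin n → ℝ}
    (hGi : ∀ a b, Gi a b = (∑ i, ∑ j, gi i j * T i a * T j b) - N a * N b)
    {L : Fin (n + 1) → Fin (n + 1) → Fin (n + 1) → Fin (n + 1) → ℝ}
    (h2 : ∀ a b c d, L a b c d = -L b a c d)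
    {Rc : Fin (n + 1) → Fin (n + 1) → ℝ} (hR : ∀ b d, Rc b d = ∑ a, ∑ k, Gi a k * L a b k d)
    {r : Fin n} (hN : ∑ a, ∑ b, G a b * N a * T r b = 0) (s : ℝ) :
    ∑ a, ∑ b, (Rc a b - s * G a b / 2) * N a * T r b =
      -∑ i, ∑ j, gi i j * q4 L N (T i) (T j) (T r) := by
  have e1 : ∑ a, ∑ b, (Rc a b - s * G a b / 2) * N a * T r b = b2 Rc N (T r) := by
    have e2 : ∑ a, ∑ b, (Rc a b - s * G a b / 2) * N a * T r b =
        b2 Rc N (T r) - s / 2 * ∑ a, ∑ b, G a b * N a * T r b := by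
      rw [b2, Finset.mul_sum, ← Finset.sum_sub_distrib]
      refine Finset.sum_congr rfl fun a _ => ?_
      rw [Finset.mul_sum, ← Finset.sum_sub_distrib]
      exact Finset.sum_congr rfl fun b _ => by ring
    rw [e2, hN]
    ring
  rw [e1, ric_frame hGi hR, q4_diag h2, sub_zero, ← Finset.sum_neg_distrib]
  refine Finset.sum_congr rfl fun i _ => ?_
  rw [← Finset.sum_neg_distrib]
  refine Finset.sum_congr rfl fun j _ => ?_
  rw [q4_swapWZ h2 (T i) N]
  ring

end Vale.Agent.P366.GC
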