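import Vale.Agent.P366.Kerr.Defs

/-! P366, Gauss-Codazzi: completeness of an adapted frame. -/

open Matrix

namespace Vale.Agent.P366.GC

variable {n : ℕ}

/-- Tangent vectors `T i` and a unit timelike normal `N` form a basis. -/
theorem compl (G Gi : Matrix (Fin (n + 1)) (Fin (n + 1)) ℝ) (hG : G * Gi = 1)
    (T : Fin n → Fin (n + 1) → ℝ) (N : Fin (n + 1) → ℝ) (g gi : Matrix (Fin n) (Fin n) ℝ)
    (hg : gi * g = 1) (hT : ∀ i j, ∑ a, ∑ b, G a b * T i a * T j b = g i j)
    (hTN : ∀ i, ∑ a, ∑ b, G a b * T i a * N b = 0)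
    (hNT : ∀ i, ∑ a, ∑ b, G a b * N a * T i b = 0)
    (hN : ∑ a, ∑ b, G a b * N a * N b = -1) (a b : Fin (n + 1)) :
    Gi a b = (∑ i, ∑ j, gi i j * T i a * T j b) - N a * N b := by
  classical
  set P : Matrix (Fin (n + 1)) (Fin n ⊕ Unit) ℝ :=
    Matrix.of fun a s => Sum.elim (fun i => T i a) (fun _ => N a) s with hP
  set B : Matrix (Fin n ⊕ Unit) (Fin n ⊕ Unit) ℝ :=
    Matrix.fromBlocks gi 0 0 (Matrix.of fun _ _ => (-1 : ℝ)) with hB
  have h1 : B * (Pᵀ * G * P) = 1 := by
    have h2 : Pᵀ * G * P = Matrix.fromBlocks g 0 0 (Matrix.of fun _ _ => (-1 : ℝ)) := by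
      ext s s'
      rw [Matrix.mul_apply]
      have h3 : ∀ c, (Pᵀ * G) s c * P c s' = ∑ a, P a s * G a c * P c s' := by
        intro c
        rw [Matrix.mul_apply, Finset.sum_mul]
        rfl
      simp only [h3]
      rw [Finset.sum_comm]
      rcases s with i | u <;> rcases s' with j | v
      · rw [Matrix.fromBlocks_apply₁₁, ← hT i j]
        refine Finset.sum_congr rfl fun a _ => Finset.sum_congr rfl fun b _ => ?_
        simp only [hP, Matrix.of_apply, Sum.elim_inl]
        ring
      · rw [Matrix.fromBlocks_apply₁₂, Matrix.zero_apply, ← hTN i]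
        refine Finset.sum_congr rfl fun a _ => Finset.sum_congr rfl fun b _ => ?_
        simp only [hP, Matrix.of_apply, Sum.elim_inl, Sum.elim_inr]
        ring
      · rw [Matrix.fromBlocks_apply₂₁, Matrix.zero_apply, ← hNT j]
        refine Finset.sum_congr rfl fun a _ => Finset.sum_congr rfl fun b _ => ?_
        simp only [hP, Matrix.of_apply, Sum.elim_inl, Sum.elim_inr]
        ring
      · rw [Matrix.fromBlocks_apply₂₂, Matrix.of_apply, ← hN]
        refine Finset.sum_congr rfl fun a _ => Finset.sum_congr rfl fun b _ => ?_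
        simp only [hP, Matrix.of_apply, Sum.elim_inr]
        ring
    rw [h2, hB, Matrix.fromBlocks_multiply]
    rw [← Matrix.fromBlocks_one]
    congr 1
    · rw [hg]; simp
    · simp
    · simp
    · ext u v
      simp [Matrix.mul_apply]
  have e : Fin (n + 1) ≃ Fin n ⊕ Unit := Fintype.equivOfCardEq (by simp)
  have h4 : (B * Pᵀ * G) * P = 1 := by
    rw [← h1]
    simp only [Matrix.mul_assoc]
  have h5 : P * (B * Pᵀ * G) = 1 := (Matrix.mul_eq_one_comm_of_equiv e.symm).1 h4
  have h6 : P * B * Pᵀ = Gi := by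
    calc P * B * Pᵀ = P * B * Pᵀ * (G * Gi) := by rw [hG, Matrix.mul_one]
      _ = (P * (B * Pᵀ * G)) * Gi := by simp only [Matrix.mul_assoc]
      _ = Gi := by rw [h5, Matrix.one_mul]
  rw [← h6, Matrix.mul_apply, Fintype.sum_sum_type]
  simp only [Matrix.mul_apply, Fintype.sum_sum_type, hP, hB, Matrix.of_apply, Sum.elim_inl,
    Sum.elim_inr, Matrix.fromBlocks_apply₁₁, Matrix.fromBlocks_apply₁₂,
    Matrix.fromBlocks_apply₂₁, Matrix.fromBlocks_apply₂₂, Matrix.zero_apply,
    Matrix.transpose_apply, Finset.univ_unique, Finset.sum_singleton]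
  simp only [mul_zero, add_zero, Finset.sum_const_zero, zero_add]
  rw [sub_eq_add_neg]
  congr 1
  · rw [Finset.sum_comm]
    have h7 : ∀ j, (∑ i, T i a * gi i j) * T j b = ∑ i, gi i j * T i a * T j b := by
      intro j
      rw [Finset.sum_mul]
      exact Finset.sum_congr rfl fun i _ => by ring
    exact Finset.sum_congr rfl fun j _ => h7 j
  · ring

end Vale.Agent.P366.GC
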